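import Vale.Agent.P300.TOR.Api
import Mathlib.Topology.SeparatedMap
import Mathlib.Topology.Homotopy.Lifting

/-!
P300, block TOR: further properties of the coverings `U_S → U` of `Vale.Agent.P300.TOR.Api`.

* sheets over the twelve charts;
* the map `U_S → U_S'` of an equivariant map `S → S'` is itself a covering map;
* `U_S` is Hausdorff, locally (path) connected, second countable for countable `S`.
-/

open Set Topology Filter

namespace Vale.Agent.P300.TOR

instance : Finite Ch := by
  refine Finite.of_injective (fun C : Ch => (C.L, C.X, C.s)) ?_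
  rintro ⟨L, X, s, _, _⟩ ⟨L', X', s', _, _⟩ h
  simp only [Prod.mk.injEq] at h
  obtain ⟨rfl, rfl, rfl⟩ := h
  rfl

theorem isOpen_US : IsOpen US := by
  have e : US = {z : ℂ × ℂ | z.1 ≠ 0} ∩ ({z | z.1 ≠ 1} ∩ ({z | z.2 ≠ 0} ∩ ({z | z.2 ≠ 1} ∩
      {z | z.1 ≠ z.2}))) := rfl
  rw [e]
  exact (isOpen_ne_fun continuous_fst continuous_const).inter
    ((isOpen_ne_fun continuous_fst continuous_const).inter
    ((isOpen_ne_fun continuous_snd continuous_const).inter
    ((isOpen_ne_fun continuous_snd continuous_const).inter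
    (isOpen_ne_fun continuous_fst continuous_snd))))

/-- The source of a local homeomorphism to a locally path connected space. -/
theorem locallyPathConnectedSpace_of {X Y : Type*} [TopologicalSpace X]
    [TopologicalSpace Y] [LocallyPathConnectedSpace X] {p : Y → X} (hp : IsLocalHomeomorph p) :
    LocallyPathConnectedSpace Y where
  path_connected_basis y := by
    rw [hasBasis_self]
    intro t ht
    obtain ⟨e, hy, -⟩ := hp y
    have h1 : e.symm ⁻¹' t ∩ e.target ∈ 𝓝 (e y) :=
      inter_mem (e.tendsto_symm hy ht) (e.open_target.mem_nhds (e.map_source hy))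
    obtain ⟨u, ⟨hu, hu'⟩, huss⟩ := (path_connected_basis (e y)).mem_iff.1 h1
    have huss : u ⊆ e.symm ⁻¹' t ∩ e.target := huss
    refine ⟨e.symm '' u, ?_, hu'.image' (e.continuousOn_symm.mono fun x hx => (huss hx).2), ?_⟩
    · have h2 := e.symm.image_mem_nhds (x := e y) (s := u) (e.map_source hy) hu
      rwa [e.left_inv hy] at h2
    · rintro _ ⟨x, hx, rfl⟩
      exact (huss hx).1

variable {G : Type*} [Group G] (r : Arr G)

namespace Arr

instance : LocallyPathConnectedSpace UT := isOpen_US.locallyPathConnectedSpace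

theorem isOpen_chart (C : Ch) : IsOpen {z : UT | (z : ℂ × ℂ) ∈ C.A} :=
  C.isOpen_A.preimage continuous_subtype_val

section

variable {S : Type*} [MulAction G S] [TopologicalSpace S] [DiscreteTopology S]

/-- The sheet with coordinate `s` over the chart of `C`. -/
def sheet (C : Ch) (s : S) : Set (r.Tot S) :=
  {p | ((r.pr p : UT) : ℂ × ℂ) ∈ C.A ∧ r.crd C p = s}

theorem mem_sheet {C : Ch} {s : S} {p : r.Tot S} :
    p ∈ r.sheet C s ↔ ((r.pr p : UT) : ℂ × ℂ) ∈ C.A ∧ r.crd C p = s := Iff.rfl

theorem isOpen_over (C : Ch) : IsOpen {p : r.Tot S | ((r.pr p : UT) : ℂ × ℂ) ∈ C.A} :=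
  C.isOpen_A.preimage (continuous_subtype_val.comp r.continuous_pr)

theorem isOpen_sheet (C : Ch) (s : S) : IsOpen (r.sheet C s : Set (r.Tot S)) := by
  rw [isOpen_iff_mem_nhds]
  rintro p ⟨h1, h2⟩
  filter_upwards [(r.isOpen_over C).mem_nhds h1, r.crd_locConst h1] with q hq hq'
  exact ⟨hq, hq'.trans h2⟩

/-- Every point lies in a sheet. -/
theorem exists_sheet (p : r.Tot S) : ∃ (C : Ch) (s : S), p ∈ r.sheet C s := by
  obtain ⟨C, hC⟩ := exists_ch (r.pr p).2
  exact ⟨C, r.crd C p, hC, rfl⟩

theorem pt_mem_sheet {C : Ch} {z : UT} (hz : (z : ℂ × ℂ) ∈ C.A) (s : S) :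
    r.pt C z s ∈ (r.sheet C s : Set (r.Tot S)) := ⟨hz, r.crd_pt hz s⟩

/-- Change of chart for points. -/
theorem pt_change {C C' : Ch} {z : UT} (hz : (z : ℂ × ℂ) ∈ C.A) (hz' : (z : ℂ × ℂ) ∈ C'.A)
    (s : S) : r.pt C z s = r.pt C' z (r.tr C C' z • s) := by
  refine r.ext_crd (C := C') rfl hz' ?_
  rw [r.crd_pt hz', r.crd_change (C := C) (C' := C') (p := r.pt C z s) hz, r.crd_pt hz]
  rfl

/-- The sheet over a chart is homeomorphic to the chart. -/
noncomputable def sheetHomeo (C : Ch) (s : S) : (r.sheet C s : Set (r.Tot S)) ≃ₜ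
    {z : UT | (z : ℂ × ℂ) ∈ C.A} where
  toFun p := ⟨r.pr p.1, p.2.1⟩
  invFun z := ⟨r.pt C z.1 s, r.pt_mem_sheet z.2 s⟩
  left_inv p := Subtype.ext (by
    change r.pt C (r.pr p.1) s = p.1
    conv_rhs => rw [← r.pt_crd p.2.1, p.2.2])
  right_inv z := Subtype.ext rfl
  continuous_toFun := (r.continuous_pr.comp continuous_subtype_val).subtype_mk _
  continuous_invFun := by
    refine Continuous.subtype_mk ?_ _
    exact continuousOn_iff_continuous_domRestrict.1 (r.continuousOn_pt C s)

instance [T2Space UT] : T2Space (r.Tot S) := by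
  rw [t2Space_iff]
  intro p q hpq
  by_cases h : r.pr p = r.pr q
  · obtain ⟨C, hC⟩ := exists_ch (r.pr p).2
    refine ⟨r.sheet C (r.crd C p), r.sheet C (r.crd C q), r.isOpen_sheet _ _, r.isOpen_sheet _ _,
      ⟨hC, rfl⟩, ⟨h ▸ hC, rfl⟩, ?_⟩
    rw [Set.disjoint_left]
    rintro x ⟨_, hx⟩ ⟨_, hx'⟩
    exact hpq (r.ext_crd h hC (hx.symm.trans hx'))
  · obtain ⟨u, v, hu, hv, hpu, hqv, huv⟩ := t2_separation h
    exact ⟨r.pr ⁻¹' u, r.pr ⁻¹' v, hu.preimage r.continuous_pr, hv.preimage r.continuous_pr,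
      hpu, hqv, huv.preimage _⟩

instance : LocallyPathConnectedSpace (r.Tot S) :=
  locallyPathConnectedSpace_of (r.isCoveringMap_pr (S := S)).isLocalHomeomorph

instance [Countable S] : SecondCountableTopology (r.Tot S) := by
  have hcov : ⋃ i : Ch × S, (r.sheet i.1 i.2 : Set (r.Tot S)) = univ := by
    rw [eq_univ_iff_forall]
    intro p
    obtain ⟨C, s, h⟩ := r.exists_sheet p
    exact mem_iUnion.2 ⟨(C, s), h⟩
  have hs : ∀ i : Ch × S, SecondCountableTopology (r.sheet i.1 i.2 : Set (r.Tot S)) := fun i =>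
    (r.sheetHomeo i.1 i.2).secondCountableTopology
  exact TopologicalSpace.secondCountableTopology_of_countable_cover
    (fun i : Ch × S => r.isOpen_sheet i.1 i.2) hcov

end

section

variable {S S' : Type*} [MulAction G S] [TopologicalSpace S] [DiscreteTopology S]
  [MulAction G S'] [TopologicalSpace S'] [DiscreteTopology S']

theorem map_comp {S'' : Type*} [MulAction G S''] [TopologicalSpace S''] [DiscreteTopology S'']
    (φ : S → S') (ψ : S' → S'') (p : r.Tot S) : r.map ψ (r.map φ p) = r.map (ψ ∘ φ) p := rfl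

theorem map_id (p : r.Tot S) : r.map (id : S → S) p = p := rfl

theorem map_surjective {φ : S → S'} (h : Function.Surjective φ) :
    Function.Surjective (r.map φ : r.Tot S → r.Tot S') := fun y => by
  obtain ⟨v, hv⟩ := h (r.fib y)
  exact ⟨⟨y.1, v⟩, by unfold map; exact congrArg _ hv⟩

theorem map_injective {φ : S → S'} (h : Function.Injective φ) :
    Function.Injective (r.map φ : r.Tot S → r.Tot S') := by
  rintro ⟨z, v⟩ ⟨z', v'⟩ hp
  have h1 : z = z' := congrArg (fun p : r.Tot S' => r.pr p) hp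
  subst h1
  have h2 : φ v = φ v' := by
    have := (Bundle.TotalSpace.mk_inj (F := S') (E := (r.core S').Fiber) (b := z)
      (y := φ v) (y' := φ v')).1 hp
    exact this
  rw [h h2]

/-- The preimage of a sheet. -/
theorem mem_preimage_sheet {φ : S → S'} (hφ : ∀ (g : G) (s : S), φ (g • s) = g • φ s) {C : Ch}
    {s' : S'} {p : r.Tot S} :
    r.map φ p ∈ r.sheet C s' ↔ ((r.pr p : UT) : ℂ × ℂ) ∈ C.A ∧ φ (r.crd C p) = s' := by
  rw [mem_sheet, r.crd_map hφ]; rfl

/-- The map of coverings induced by an equivariant map is a covering map. -/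
theorem isCoveringMap_map {φ : S → S'} (hφ : ∀ (g : G) (s : S), φ (g • s) = g • φ s) :
    IsCoveringMap (r.map φ : r.Tot S → r.Tot S') := by
  intro y
  obtain ⟨C, hC⟩ := exists_ch (r.pr y).2
  have hev : IsEvenlyCovered (r.map φ) y {v : S // φ v = r.crd C y} := by
    refine ⟨inferInstance, r.sheet C (r.crd C y), ⟨hC, rfl⟩, r.isOpen_sheet _ _,
      (r.isOpen_sheet _ _).preimage (r.continuous_map hφ), ?_⟩
    have hin : ∀ (z : r.Tot S') (_ : z ∈ r.sheet C (r.crd C y))
        (v : {v : S // φ v = r.crd C y}), r.map φ (r.pt C (r.pr z) v.1) = z := by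
      intro z hz v
      rw [r.map_pt hφ hz.1, v.2, ← hz.2, r.pt_crd hz.1]
    refine ⟨{
      toFun := fun x => (⟨r.map φ x.1, x.2⟩, ⟨r.crd C x.1, ((r.mem_preimage_sheet hφ).1 x.2).2⟩)
      invFun := fun q => ⟨r.pt C (r.pr q.1.1) q.2.1, ?_⟩
      left_inv := fun x => ?_
      right_inv := fun q => ?_
      continuous_toFun := ?_
      continuous_invFun := ?_ }, fun x => rfl⟩
    · rw [mem_preimage, hin _ q.1.2]; exact q.1.2
    · apply Subtype.ext
      exact r.pt_crd ((r.mem_preimage_sheet hφ).1 x.2).1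
    · exact Prod.ext (Subtype.ext (hin _ q.1.2 _)) (Subtype.ext (r.crd_pt q.1.2.1 _))
    · refine (((r.continuous_map hφ).comp continuous_subtype_val).subtype_mk _).prodMk ?_
      refine Continuous.subtype_mk ?_ _
      exact continuousOn_iff_continuous_domRestrict.1 ((r.continuousOn_crd C).mono fun p hp =>
        ((r.mem_preimage_sheet hφ).1 hp).1)
    · refine Continuous.subtype_mk ?_ _
      rw [continuous_iff_continuousAt]
      intro q
      have h1 : ∀ᶠ q' : r.sheet C (r.crd C y) × {v : S // φ v = r.crd C y} in 𝓝 q,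
          q'.2 = q.2 := continuous_snd.continuousAt.eventually
            ((isOpen_discrete {q.2}).mem_nhds (mem_singleton _))
      have h2 : ContinuousAt (fun q' : r.sheet C (r.crd C y) × {v : S // φ v = r.crd C y} =>
          r.pt C (r.pr q'.1.1) q.2.1) q := by
        have h3 : ContinuousAt (fun q' : r.sheet C (r.crd C y) ×
            {v : S // φ v = r.crd C y} => r.pr q'.1.1) q :=
          (r.continuous_pr.comp (continuous_subtype_val.comp continuous_fst)).continuousAt
        exact ContinuousAt.comp (g := fun z : UT => r.pt C z q.2.1)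
          ((r.continuousOn_pt C _).continuousAt ((isOpen_chart C).mem_nhds q.1.2.1)) h3
      refine h2.congr ?_
      filter_upwards [h1] with q' hq'
      rw [hq']
  exact hev.to_isEvenlyCovered_preimage

theorem isLocalHomeomorph_map {φ : S → S'} (hφ : ∀ (g : G) (s : S), φ (g • s) = g • φ s) :
    IsLocalHomeomorph (r.map φ : r.Tot S → r.Tot S') :=
  (r.isCoveringMap_map hφ).isLocalHomeomorph

end

end Arr

end Vale.Agent.P300.TOR
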