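import Mathlib.Topology.Homotopy.Lifting
import Mathlib.Topology.FiberBundle.Basic
import Mathlib.Topology.Covering.Basic
import Mathlib.Topology.SeparatedMap
import Mathlib.Tactic.Group

/-!
# P300 [TOR], part 1: coverings from a stratification and a functor to a group

`Cocycle M S E`: a map `σ` from the space `M` to a preorder `S` such that the stars
`{b | σ a ≤ σ b}` are open, and elements `e i j` of a group `E` with
`e i k = e i j * e j k` for `i ≤ j ≤ k` (realised by points of `M`).  Every discrete set `F` with
an action of `E` gives a covering `Tot C F → M`, functorially in `F`.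
-/

set_option linter.unusedSectionVars false

open Set Topology Bundle

namespace Vale.Agent.P300.Tor

/-- A stratified space with a functor from the strata to a group. -/
structure Cocycle (M : Type*) [TopologicalSpace M] (S : Type*) [Preorder S]
    (E : Type*) [Group E] where
  σ : M → S
  isOpen_ge : ∀ a : M, IsOpen {b | σ a ≤ σ b}
  e : S → S → E
  e_comp : ∀ a b c : M, σ a ≤ σ b → σ b ≤ σ c →
    e (σ a) (σ c) = e (σ a) (σ b) * e (σ b) (σ c)

namespace Cocycle

variable {M : Type*} [TopologicalSpace M] {S : Type*} [Preorder S] {E : Type*} [Group E]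
  (C : Cocycle M S E)

/-- the star of a point -/
def star (a : M) : Set M := {b | C.σ a ≤ C.σ b}

theorem mem_star {a b : M} : b ∈ C.star a ↔ C.σ a ≤ C.σ b := Iff.rfl

theorem isOpen_star (a : M) : IsOpen (C.star a) := C.isOpen_ge a

theorem self_mem_star (a : M) : a ∈ C.star a := le_refl _

/-- the transition element -/
def g (a b : M) : E := C.e (C.σ a) (C.σ b)

theorem g_comp {a b c : M} (h : b ∈ C.star a) (h' : c ∈ C.star b) :
    C.g a c = C.g a b * C.g b c := C.e_comp a b c h h'

theorem star_subset {a b : M} (h : b ∈ C.star a) : C.star b ⊆ C.star a := fun _ hc =>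
  le_trans h hc

@[simp] theorem g_self (a : M) : C.g a a = 1 := by
  have h := C.g_comp (C.self_mem_star a) (C.self_mem_star a)
  exact left_eq_mul.1 h

section Core

variable (F : Type*) [TopologicalSpace F] [DiscreteTopology F] [MulAction E F]

/-- The bundle. -/
def core : FiberBundleCore M M F where
  baseSet := C.star
  isOpen_baseSet := C.isOpen_star
  indexAt := id
  mem_baseSet_at := C.self_mem_star
  coordChange a a' b v := (C.g a' b * (C.g a b)⁻¹) • v
  coordChange_self a b _ v := by simp
  continuousOn_coordChange a a' := by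
    intro p hp
    obtain ⟨⟨h1, h2⟩, -⟩ := hp
    have hloc : (fun q : M × F => (C.g a' q.1 * (C.g a q.1)⁻¹) • q.2) =ᶠ[𝓝 p]
        fun q => (C.g a' p.1 * (C.g a p.1)⁻¹) • q.2 := by
      have hn : {q : M × F | q.1 ∈ C.star p.1} ∈ 𝓝 p :=
        continuous_fst.continuousAt.preimage_mem_nhds
          ((C.isOpen_star p.1).mem_nhds (C.self_mem_star p.1))
      filter_upwards [hn] with q hq
      rw [C.g_comp h1 hq, C.g_comp h2 hq]
      group
    refine ContinuousAt.continuousWithinAt ?_
    refine ContinuousAt.congr ?_ hloc.symm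
    exact (continuous_of_discreteTopology.comp continuous_snd).continuousAt
  coordChange_comp a a' a'' b _ v := by
    rw [smul_smul]
    congr 1
    group

/-- The total space of the covering with fibre `F`. -/
abbrev Tot : Type _ := TotalSpace F (C.core F).Fiber

/-- The projection. -/
abbrev proj : C.Tot F → M := TotalSpace.proj

variable {F}

/-- The point over `b` with coordinate `v` (in the trivialisation of `b` itself). -/
def pt (b : M) (v : F) : C.Tot F := ⟨b, v⟩

@[simp] theorem proj_pt (b : M) (v : F) : C.proj F (C.pt b v) = b := rfl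

theorem exists_pt (x : C.Tot F) : ∃ b v, x = C.pt b v := ⟨x.1, x.2, rfl⟩

/-- the coordinate of a point -/
def cd (x : C.Tot F) : F := x.2

@[simp] theorem cd_pt (b : M) (v : F) : C.cd (C.pt b v) = v := rfl

theorem pt_cd (x : C.Tot F) : C.pt (C.proj F x) (C.cd x) = x := rfl

theorem pt_injective (b : M) : Function.Injective (C.pt b : F → C.Tot F) := fun v w h => by
  have : C.cd (C.pt b v) = C.cd (C.pt b w) := by rw [h]
  exact this

variable (F)

instance instDiscreteFiber (b : M) : DiscreteTopology ((C.core F).Fiber b) :=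
  inferInstanceAs (DiscreteTopology F)

theorem isCoveringMap : IsCoveringMap (C.proj F) :=
  FiberBundle.isCoveringMap

theorem continuous_proj : Continuous (C.proj F) := (C.isCoveringMap F).continuous

theorem isLocalHomeomorph : IsLocalHomeomorph (C.proj F) := (C.isCoveringMap F).isLocalHomeomorph

variable {F}

/-- The local section over the star of `a` through `(a, v)`. -/
def sec (a : M) (v : F) (b : M) : C.Tot F := C.pt b ((C.g a b)⁻¹ • v)

@[simp] theorem proj_sec (a : M) (v : F) (b : M) : C.proj F (C.sec a v b) = b := rfl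

@[simp] theorem sec_self (a : M) (v : F) : C.sec a v a = C.pt a v := by simp [sec]

theorem sec_eq_symm (a b : M) (v : F) :
    C.sec a v b = ((C.core F).localTriv a).toOpenPartialHomeomorph.symm (b, v) := by
  rw [FiberBundleCore.localTriv_symm_apply]
  unfold sec pt
  congr 1
  change (C.g a b)⁻¹ • v = (C.g b b * (C.g a b)⁻¹) • v
  rw [g_self, one_mul]

theorem continuousOn_sec (a : M) (v : F) : ContinuousOn (C.sec a v) (C.star a) := by
  have h : ContinuousOn (fun b : M =>
      ((C.core F).localTriv a).toOpenPartialHomeomorph.symm (b, v)) (C.star a) := by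
    refine (((C.core F).localTriv a).toOpenPartialHomeomorph.continuousOn_symm).comp
      (by fun_prop) fun b hb => ?_
    rw [((C.core F).localTriv a).target_eq]
    exact ⟨hb, mem_univ _⟩
  exact h.congr fun b _ => C.sec_eq_symm a b v

/-- The transport along the relation `b ∈ star a`. -/
theorem sec_sec {a b c : M} (hb : b ∈ C.star a) (hc : c ∈ C.star b) (v : F) :
    C.sec b ((C.g a b)⁻¹ • v) c = C.sec a v c := by
  unfold sec
  rw [C.g_comp hb hc, smul_smul, mul_inv_rev]

/-- A function to the total space is continuous at `y` iff its projection is and near `y` its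
coordinate is the transported one. -/
theorem continuousAt_iff {Y : Type*} [TopologicalSpace Y] {f : Y → C.Tot F} {y : Y} :
    ContinuousAt f y ↔ ContinuousAt (fun z => C.proj F (f z)) y ∧
      ∀ᶠ z in 𝓝 y, C.cd (f z) = (C.g (C.proj F (f y)) (C.proj F (f z)))⁻¹ • C.cd (f y) := by
  constructor
  · intro h
    have h1 : ContinuousAt (fun z => C.proj F (f z)) y :=
      (C.continuous_proj F).continuousAt.comp h
    refine ⟨h1, ?_⟩
    have h2 : f y ∈ ((C.core F).localTriv (C.proj F (f y))).source := by
      rw [((C.core F).localTriv _).mem_source]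
      exact C.self_mem_star _
    have h3 : ∀ᶠ z in 𝓝 y, f z ∈ ((C.core F).localTriv (C.proj F (f y))).source :=
      h.eventually (((C.core F).localTriv _).open_source.mem_nhds h2)
    have h4 : ContinuousAt (fun z => (((C.core F).localTriv (C.proj F (f y))) (f z)).2) y :=
      (continuous_snd.continuousAt.comp
        (((C.core F).localTriv (C.proj F (f y))).continuousOn.continuousAt
          (((C.core F).localTriv _).open_source.mem_nhds h2))).comp h
    have h5 : ∀ᶠ z in 𝓝 y, (((C.core F).localTriv (C.proj F (f y))) (f z)).2 =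
        (((C.core F).localTriv (C.proj F (f y))) (f y)).2 :=
      h4.eventually (isOpen_discrete _ |>.mem_nhds (mem_singleton _))
    filter_upwards [h3, h5] with z hz hz'
    have e1 : ∀ x : C.Tot F, (((C.core F).localTriv (C.proj F (f y))) x).2 =
        C.g (C.proj F (f y)) (C.proj F x) • C.cd x := fun x => by
      rw [FiberBundleCore.localTriv_apply]
      change (C.g (C.proj F (f y)) (C.proj F x) * (C.g (C.proj F x) (C.proj F x))⁻¹) • C.cd x = _
      rw [g_self, inv_one, mul_one]
    rw [e1, e1, g_self, one_smul] at hz'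
    rw [← hz', inv_smul_smul]
  · rintro ⟨h1, h2⟩
    have h3 : ContinuousAt (fun z => C.sec (C.proj F (f y)) (C.cd (f y)) (C.proj F (f z))) y :=
      ContinuousAt.comp (f := fun z => C.proj F (f z))
        ((C.continuousOn_sec (C.proj F (f y)) (C.cd (f y))).continuousAt
        ((C.isOpen_star _).mem_nhds (C.self_mem_star _))) h1
    refine h3.congr ?_
    filter_upwards [h2] with z hz
    unfold sec
    rw [← hz]
    rfl

/-! ### Equivariant maps -/

section Map

variable {F' : Type*} [TopologicalSpace F'] [DiscreteTopology F'] [MulAction E F']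
variable {F'' : Type*} [TopologicalSpace F''] [DiscreteTopology F''] [MulAction E F'']

/-- The map of coverings induced by an equivariant map of the fibres. -/
def map (f : F → F') (x : C.Tot F) : C.Tot F' := C.pt (C.proj F x) (f (C.cd x))

@[simp] theorem proj_map (f : F → F') (x : C.Tot F) : C.proj F' (C.map f x) = C.proj F x := rfl

@[simp] theorem map_pt (f : F → F') (b : M) (v : F) : C.map f (C.pt b v) = C.pt b (f v) := rfl

@[simp] theorem cd_map (f : F → F') (x : C.Tot F) : C.cd (C.map f x) = f (C.cd x) := rfl

theorem map_map (f : F → F') (f' : F' → F'') (x : C.Tot F) :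
    C.map f' (C.map f x) = C.map (f' ∘ f) x := rfl

theorem map_id (x : C.Tot F) : C.map id x = x := rfl

theorem continuous_map {f : F → F'} (hf : ∀ (g : E) v, f (g • v) = g • f v) :
    Continuous (C.map f) := by
  rw [continuous_iff_continuousAt]
  intro x
  have hx := (C.continuousAt_iff (f := fun z : C.Tot F => z) (y := x)).1 continuousAt_id
  refine C.continuousAt_iff.2 ⟨hx.1, ?_⟩
  filter_upwards [hx.2] with z hz
  rw [cd_map, hz, hf]
  rfl

theorem map_surjective {f : F → F'} (hf : Function.Surjective f) :
    Function.Surjective (C.map f) := fun y => by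
  obtain ⟨v, hv⟩ := hf (C.cd y)
  exact ⟨C.pt (C.proj F' y) v, by rw [map_pt, hv]; rfl⟩

/-- The sheet over the star of `a` with coordinate `w`. -/
def sheet (a : M) (w : F) : Set (C.Tot F) :=
  {z | C.proj F z ∈ C.star a ∧ C.g a (C.proj F z) • C.cd z = w}

theorem isOpen_sheet (a : M) (w : F) : IsOpen (C.sheet a w) := by
  rw [isOpen_iff_eventually]
  rintro z ⟨h1, h2⟩
  have h3 := ((C.continuousAt_iff (f := fun z : C.Tot F => z) (y := z)).1 continuousAt_id).2
  have h4 : ∀ᶠ z' in 𝓝 z, C.proj F z' ∈ C.star (C.proj F z) :=
    (C.continuous_proj F).continuousAt.eventually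
      ((C.isOpen_star _).mem_nhds (C.self_mem_star _))
  filter_upwards [h3, h4] with z' h5 h6
  refine ⟨C.star_subset h1 h6, ?_⟩
  rw [h5, C.g_comp h1 h6, mul_smul, smul_inv_smul, h2]

/-- The map of coverings induced by an equivariant map is a covering map. -/
theorem map_isCoveringMap {f : F → F'} (hf : ∀ (g : E) v, f (g • v) = g • f v) :
    IsCoveringMap (C.map f) := by
  intro y
  have hev : IsEvenlyCovered (C.map f) y {v : F // f v = C.cd y} := by
    refine ⟨inferInstance, C.sheet (C.proj F' y) (C.cd y), ⟨C.self_mem_star _, by simp⟩,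
      C.isOpen_sheet _ _, (C.isOpen_sheet _ _).preimage (C.continuous_map hf), ?_⟩
    have hin : ∀ (z : C.Tot F') (_ : z ∈ C.sheet (C.proj F' y) (C.cd y))
        (v : {v : F // f v = C.cd y}), C.map f (C.sec (C.proj F' y) v.1 (C.proj F' z)) = z := by
      intro z hz v
      change C.pt (C.proj F' z) (f ((C.g (C.proj F' y) (C.proj F' z))⁻¹ • v.1)) = z
      rw [hf, v.2, ← hz.2, inv_smul_smul]
      rfl
    refine ⟨{
      toFun := fun x => (⟨C.map f x.1, x.2⟩, ⟨C.g (C.proj F' y) (C.proj F x.1) • C.cd x.1, ?_⟩)
      invFun := fun q => ⟨C.sec (C.proj F' y) q.2.1 (C.proj F' q.1.1), ?_⟩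
      left_inv := fun x => ?_
      right_inv := fun q => ?_
      continuous_toFun := ?_
      continuous_invFun := ?_ }, fun x => rfl⟩
    · rw [hf]; exact x.2.2
    · rw [mem_preimage, hin _ q.1.2]; exact q.1.2
    · apply Subtype.ext
      change C.pt (C.proj F x.1) ((C.g (C.proj F' y) (C.proj F x.1))⁻¹ •
        C.g (C.proj F' y) (C.proj F x.1) • C.cd x.1) = x.1
      rw [inv_smul_smul]
      rfl
    · refine Prod.ext (Subtype.ext (hin _ q.1.2 _)) (Subtype.ext ?_)
      change C.g (C.proj F' y) (C.proj F' q.1.1) •
        (C.g (C.proj F' y) (C.proj F' q.1.1))⁻¹ • q.2.1 = q.2.1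
      rw [smul_inv_smul]
    · refine ((C.continuous_map hf).comp continuous_subtype_val).subtype_mk _ |>.prodMk ?_
      rw [continuous_iff_continuousAt]
      intro x
      have h1 : x.1 ∈ C.sheet (C.proj F' y) (C.g (C.proj F' y) (C.proj F x.1) • C.cd x.1) :=
        ⟨x.2.1, rfl⟩
      have h2 : ∀ᶠ x' : (C.map f) ⁻¹' C.sheet (C.proj F' y) (C.cd y) in 𝓝 x,
          x'.1 ∈ C.sheet (C.proj F' y) (C.g (C.proj F' y) (C.proj F x.1) • C.cd x.1) :=
        continuous_subtype_val.continuousAt.eventually ((C.isOpen_sheet _ _).mem_nhds h1)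
      have h3 : ContinuousAt (fun _ : (C.map f) ⁻¹' C.sheet (C.proj F' y) (C.cd y) =>
          (⟨C.g (C.proj F' y) (C.proj F x.1) • C.cd x.1, by rw [hf]; exact x.2.2⟩ :
            {v : F // f v = C.cd y})) x := continuousAt_const
      refine h3.congr ?_
      filter_upwards [h2] with x' hx'
      exact Subtype.ext hx'.2.symm
    · refine Continuous.subtype_mk ?_ _
      rw [continuous_iff_continuousAt]
      intro q
      have h1 : ∀ᶠ q' : C.sheet (C.proj F' y) (C.cd y) × {v : F // f v = C.cd y} in 𝓝 q,
          q'.2 = q.2 := continuous_snd.continuousAt.eventually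
            ((isOpen_discrete {q.2}).mem_nhds (mem_singleton _))
      have h2 : ContinuousAt (fun q' : C.sheet (C.proj F' y) (C.cd y) ×
          {v : F // f v = C.cd y} => C.sec (C.proj F' y) q.2.1 (C.proj F' q'.1.1)) q := by
        have h3 : ContinuousAt (fun q' : C.sheet (C.proj F' y) (C.cd y) ×
            {v : F // f v = C.cd y} => C.proj F' q'.1.1) q :=
          ((C.continuous_proj F').comp (continuous_subtype_val.comp continuous_fst)).continuousAt
        exact ContinuousAt.comp (g := C.sec (C.proj F' y) q.2.1)
          ((C.continuousOn_sec _ _).continuousAt ((C.isOpen_star _).mem_nhds q.1.2.1)) h3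
      refine h2.congr ?_
      filter_upwards [h1] with q' hq'
      rw [hq']
  exact hev.to_isEvenlyCovered_preimage

end Map

end Core

end Cocycle

end Vale.Agent.P300.Tor
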